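import Vale.Agent.P352.BW.Lm
import Vale.Agent.P352.BW.W1
import Vale.Agent.P352.BW.G1
import Vale.Agent.P352.BW.H234.Wd
import Vale.Agent.P352.BW.T.Tg
import Vale.Agent.P352.H48.Ln1
import Vale.Agent.P352Z.P352.BW.U
import Vale.Agent.P352G6.Bwg

open Vale.Agent.P352G

/-!
# P352 BW [W]: local nets without the regularity of the modular groups
-/

set_option linter.all false

noncomputable section

open MeasureTheory Filter Topology
open scoped ComplexConjugate InnerProductSpace BoundedContinuousFunction

namespace Vale.Agent.P352.BW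

open Vale.Agent.P132 (ModData exists_modData)
open UniformSpace (Completion)
open GF H246 H496 H755 H15

variable {D : Type*} [NormedAddCommGroup D] [InnerProductSpace ℂ D] [GrD D] {Q : Theory D}
  {A : (V → V) → D → D} {𝒜 : Set V → VonNeumannAlgebra (Completion D)}

namespace LNmZ

/-- **The theorem of Bisognano and Wichmann**, if the vacuum is cyclic for the tensor fields -/
theorem bw (N : LNmZ Q A 𝒜) (hG : TfGenZ Q) (a b : V) (t : ℝ) (L : Ix → V)
    (E : ModData (𝒜 (Wdg a b 0)) (om Q)) (z : Completion D) (ha : IsNull a) (hb : IsNull b)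
    (hab : GF.mdot a b = 1) (hL : IsLor L)
    (h : ∀ x, sim 1 L 0 x = x + ((Real.exp (-(2 * Real.pi * t)) - 1) * GF.mdot b x) • a +
      ((Real.exp (2 * Real.pi * t) - 1) * GF.mdot a x) • b) : E.U t z = Ue Q 1 L 0 z :=
  bwg D Q A 𝒜 N hG a b t L E z ha hb hab hL h

end LNmZ

end Vale.Agent.P352.BW

end
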